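import Vale.Agent.P017.R4.Defs
import Vale.Agent.P017.R3.H524.Num

/-!
# P017: the numerical constants of the second stage (M1, M2)
-/

open Finset Filter Topology

namespace Vale.Agent.P017.R4.H524

open Vale.Agent.P017.R3 Vale.Agent.P017.R3.H524

open Classical in
theorem count_gen (Q : ℕ → Prop) (RA RB RC RD : Finset ℕ)
    (hA : ∀ n, n % 60 ∈ RA → Q n ∧ ¬ 3 ∣ n ∧ ¬ 5 ∣ n)
    (hB : ∀ m, m % 60 ∈ RB → Q (3 * m) ∧ ¬ 3 ∣ m ∧ ¬ 5 ∣ m)
    (hC : ∀ m, m % 60 ∈ RC → Q (5 * m) ∧ ¬ 3 ∣ m ∧ ¬ 5 ∣ m)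
    (hD : ∀ m, m % 60 ∈ RD → Q (15 * m) ∧ ¬ 3 ∣ m ∧ ¬ 5 ∣ m) (X : ℕ) :
    (TT 60 RA X).card + (TT 60 RB (X / 3)).card + (TT 60 RC (X / 5)).card +
      (TT 60 RD (X / 15)).card ≤
    ((Icc 1 X).filter (fun d => Squarefree d ∧ Q d)).card := by
  rw [← image_card _ _ (X / 3) 3 (by norm_num), ← image_card _ _ (X / 5) 5 (by norm_num),
    ← image_card _ _ (X / 15) 15 (by norm_num)]
  have hAB : Disjoint (TT 60 RA X) ((TT 60 RB (X / 3)).image (fun n => 3 * n)) := by
    rw [Finset.disjoint_left]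
    intro n hn hn'
    rw [TT_mem] at hn
    rw [mem_image] at hn'
    obtain ⟨m, _, rfl⟩ := hn'
    exact (hA _ hn.2.2).2.1 (Dvd.intro _ rfl)
  have hABC : Disjoint (TT 60 RA X ∪ (TT 60 RB (X / 3)).image (fun n => 3 * n))
      ((TT 60 RC (X / 5)).image (fun n => 5 * n)) := by
    rw [Finset.disjoint_left]
    intro n hn hn'
    rw [mem_image] at hn'
    obtain ⟨m, hm, rfl⟩ := hn'
    rw [TT_mem] at hm
    have h2 := hC _ hm.2.2
    rw [mem_union, TT_mem, mem_image] at hn
    rcases hn with hn | ⟨k, hk, hk'⟩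
    · exact (hA _ hn.2.2).2.2 (Dvd.intro _ rfl)
    · rw [TT_mem] at hk
      have h1 := hB _ hk.2.2
      have h3 := h2.2.1
      omega
  have hABCD : Disjoint (TT 60 RA X ∪ (TT 60 RB (X / 3)).image (fun n => 3 * n) ∪
      (TT 60 RC (X / 5)).image (fun n => 5 * n)) ((TT 60 RD (X / 15)).image (fun n => 15 * n)) := by
    rw [Finset.disjoint_left]
    intro n hn hn'
    rw [mem_image] at hn'
    obtain ⟨m, hm, rfl⟩ := hn'
    rw [mem_union, mem_union, TT_mem, mem_image, mem_image] at hn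
    rcases hn with (hn | ⟨k, hk, hk'⟩) | ⟨k, hk, hk'⟩
    · have := (hA _ hn.2.2).2.1
      omega
    · rw [TT_mem] at hk
      have h1 := (hB _ hk.2.2).2.2
      omega
    · rw [TT_mem] at hk
      have h1 := (hC _ hk.2.2).2.1
      omega
  rw [← Finset.card_union_of_disjoint hAB, ← Finset.card_union_of_disjoint hABC,
    ← Finset.card_union_of_disjoint hABCD]
  apply Finset.card_le_card
  intro n hn
  rw [mem_union, mem_union, mem_union] at hn
  rw [mem_filter, mem_Icc]
  rcases hn with ((hn | hn) | hn) | hn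
  · rw [TT_mem] at hn
    obtain ⟨h1, h2, h3⟩ := hn
    exact ⟨h1, h2, (hA _ h3).1⟩
  · rw [mem_image] at hn
    obtain ⟨m, hm, rfl⟩ := hn
    rw [TT_mem] at hm
    obtain ⟨h1, h2, h3⟩ := hm
    have h4 := hB _ h3
    refine ⟨by omega, ?_, h4.1⟩
    refine sq_mul_coprime Nat.prime_three.squarefree h2 ?_
    rw [Nat.Prime.coprime_iff_not_dvd Nat.prime_three]
    exact h4.2.1
  · rw [mem_image] at hn
    obtain ⟨m, hm, rfl⟩ := hn
    rw [TT_mem] at hm
    obtain ⟨h1, h2, h3⟩ := hm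
    have h4 := hC _ h3
    refine ⟨by omega, ?_, h4.1⟩
    refine sq_mul_coprime Nat.prime_five.squarefree h2 ?_
    rw [Nat.Prime.coprime_iff_not_dvd Nat.prime_five]
    exact h4.2.2
  · rw [mem_image] at hn
    obtain ⟨m, hm, rfl⟩ := hn
    rw [TT_mem] at hm
    obtain ⟨h1, h2, h3⟩ := hm
    have h4 := hD _ h3
    refine ⟨by omega, ?_, h4.1⟩
    have h15 : (15 : ℕ) = 3 * 5 := by norm_num
    have hc3 : Nat.Coprime 3 m := by
      rw [Nat.Prime.coprime_iff_not_dvd Nat.prime_three]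
      exact h4.2.1
    have hc5 : Nat.Coprime 5 m := by
      rw [Nat.Prime.coprime_iff_not_dvd Nat.prime_five]
      exact h4.2.2
    refine sq_mul_coprime ?_ h2 ?_
    · rw [h15]
      exact sq_mul_coprime Nat.prime_three.squarefree Nat.prime_five.squarefree (by norm_num)
    · rw [h15]
      exact Nat.Coprime.mul_left hc3 hc5

theorem final_gen (RA RB RC RD : Finset ℕ) (cA : RA.card = 2) (cB : RB.card = 4)
    (cC : RC.card = 4) (cD : RD.card = 8) (hA : ∀ r ∈ RA, r < 60 ∧ r.Coprime 60)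
    (hB : ∀ r ∈ RB, r < 60 ∧ r.Coprime 60) (hC : ∀ r ∈ RC, r < 60 ∧ r.Coprime 60)
    (hD : ∀ r ∈ RD, r < 60 ∧ r.Coprime 60) (F : ℕ → ℕ)
    (hF : ∀ X, (TT 60 RA X).card + (TT 60 RB (X / 3)).card + (TT 60 RC (X / 5)).card +
      (TT 60 RD (X / 15)).card ≤ F X) :
    ∃ X₀ : ℕ, ∀ X : ℕ, X₀ ≤ X → (7385 / 100000 : ℝ) * X ≤ F X := by
  have h1 := TT_tendsto (q := 60) (by norm_num) RA hA
  have h2 := comp_div (TT_tendsto (q := 60) (by norm_num) RB hB) (c := 3) (by norm_num)
  have h3 := comp_div (TT_tendsto (q := 60) (by norm_num) RC hC) (c := 5) (by norm_num)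
  have h4 := comp_div (TT_tendsto (q := 60) (by norm_num) RD hD) (c := 15) (by norm_num)
  have h5 := ((h1.add h2).add h3).add h4
  rw [cA, cB, cC, cD, LL_sixty] at h5
  have hpi : Real.pi < 3.141593 := Real.pi_lt_d6
  have hpi0 : 0 < Real.pi := Real.pi_pos
  have hpi2 : Real.pi ^ 2 < 9.8697 := by nlinarith
  have h6 : (7385 / 100000 : ℝ) < (2 : ℕ) * (75 / (8 * Real.pi ^ 2) / (60 : ℕ)) +
      (4 : ℕ) * (75 / (8 * Real.pi ^ 2) / (60 : ℕ)) / (3 : ℕ) +
      (4 : ℕ) * (75 / (8 * Real.pi ^ 2) / (60 : ℕ)) / (5 : ℕ) +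
      (8 : ℕ) * (75 / (8 * Real.pi ^ 2) / (60 : ℕ)) / (15 : ℕ) := by
    have h7 : (2 : ℕ) * (75 / (8 * Real.pi ^ 2) / (60 : ℕ)) +
      (4 : ℕ) * (75 / (8 * Real.pi ^ 2) / (60 : ℕ)) / (3 : ℕ) +
      (4 : ℕ) * (75 / (8 * Real.pi ^ 2) / (60 : ℕ)) / (5 : ℕ) +
      (8 : ℕ) * (75 / (8 * Real.pi ^ 2) / (60 : ℕ)) / (15 : ℕ) = (35 / 48) / Real.pi ^ 2 := by
      push_cast
      field_simp
      norm_num
    rw [h7, lt_div_iff₀ (by positivity)]
    nlinarith
  have h7 := h5.eventually (lt_mem_nhds h6)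
  obtain ⟨X₀, hX₀⟩ := eventually_atTop.1 (h7.and (eventually_gt_atTop 0))
  refine ⟨X₀, fun X hX => ?_⟩
  obtain ⟨h8, h9⟩ := hX₀ X hX
  have hX' : (0 : ℝ) < X := by exact_mod_cast h9
  have h11 : ((TT 60 RA X).card : ℝ) + (TT 60 RB (X / 3)).card +
      (TT 60 RC (X / 5)).card + (TT 60 RD (X / 15)).card ≤ (F X : ℝ) := by
    exact_mod_cast hF X
  refine le_trans ?_ h11
  rw [← add_div, ← add_div, ← add_div, lt_div_iff₀ hX'] at h8
  exact h8.le

open Classical in
/-- (M1) -/
theorem stmtNum5 : StmtNum5 := by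
  refine final_gen {17, 53} {11, 19, 31, 59} {1, 13, 37, 49} {7, 11, 19, 23, 31, 43, 47, 59}
    (by decide) (by decide) (by decide) (by decide) (by decide) (by decide) (by decide)
    (by decide) _ (fun X => (count_gen (fun d => d % 4 = 1 ∧ OKc d) _ _ _ _ ?_ ?_ ?_ ?_ X).trans
      (Finset.card_le_card fun d hd => by simp only [mem_filter] at hd ⊢; exact hd))
  · intro n hn
    simp only [mem_insert, mem_singleton] at hn
    unfold OKc
    omega
  · intro n hn
    simp only [mem_insert, mem_singleton] at hn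
    unfold OKc
    omega
  · intro n hn
    simp only [mem_insert, mem_singleton] at hn
    unfold OKc
    omega
  · intro n hn
    simp only [mem_insert, mem_singleton] at hn
    unfold OKc
    omega

open Classical in
/-- (M2) -/
theorem stmtNum6 : StmtNum6 := by
  rintro r (rfl | rfl)
  · refine final_gen {1, 49} {7, 23, 43, 47} {17, 29, 41, 53} {7, 11, 19, 23, 31, 43, 47, 59}
      (by decide) (by decide) (by decide) (by decide) (by decide) (by decide) (by decide)
      (by decide) _ (fun X => (count_gen (fun d => d % 4 = 1 ∧ OKc (2 * d)) _ _ _ _ ?_ ?_ ?_ ?_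
        X).trans (Finset.card_le_card fun d hd => by simp only [mem_filter] at hd ⊢; exact hd))
    · intro n hn
      simp only [mem_insert, mem_singleton] at hn
      unfold OKc
      omega
    · intro n hn
      simp only [mem_insert, mem_singleton] at hn
      unfold OKc
      omega
    · intro n hn
      simp only [mem_insert, mem_singleton] at hn
      unfold OKc
      omega
    · intro n hn
      simp only [mem_insert, mem_singleton] at hn
      unfold OKc
      omega
  · refine final_gen {19, 31} {13, 17, 37, 53} {11, 23, 47, 59} {1, 13, 17, 29, 37, 41, 49, 53}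
      (by decide) (by decide) (by decide) (by decide) (by decide) (by decide) (by decide)
      (by decide) _ (fun X => (count_gen (fun d => d % 4 = 3 ∧ OKc (2 * d)) _ _ _ _ ?_ ?_ ?_ ?_
        X).trans (Finset.card_le_card fun d hd => by simp only [mem_filter] at hd ⊢; exact hd))
    · intro n hn
      simp only [mem_insert, mem_singleton] at hn
      unfold OKc
      omega
    · intro n hn
      simp only [mem_insert, mem_singleton] at hn
      unfold OKc
      omega
    · intro n hn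
      simp only [mem_insert, mem_singleton] at hn
      unfold OKc
      omega
    · intro n hn
      simp only [mem_insert, mem_singleton] at hn
      unfold OKc
      omega

end Vale.Agent.P017.R4.H524
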