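import Vale.Agent.P017.R4.Defs2
import Vale.Agent.P017.R4.H524.Num56

/-!
# P017: the numerical constants of the second stage (M3, M4)
-/

open Finset Filter Topology

namespace Vale.Agent.P017.R4.H524

open Vale.Agent.P017.R3 Vale.Agent.P017.R3.H524

theorem final_gen4 (RA RB RC RD : Finset ℕ) (cA : RA.card = 4) (cB : RB.card = 4)
    (cC : RC.card = 4) (cD : RD.card = 8) (hA : ∀ r ∈ RA, r < 60 ∧ r.Coprime 60)
    (hB : ∀ r ∈ RB, r < 60 ∧ r.Coprime 60) (hC : ∀ r ∈ RC, r < 60 ∧ r.Coprime 60)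
    (hD : ∀ r ∈ RD, r < 60 ∧ r.Coprime 60) (F : ℕ → ℕ)
    (hF : ∀ X, (TT 60 RA X).card + (TT 60 RB (X / 3)).card + (TT 60 RC (X / 5)).card +
      (TT 60 RD (X / 15)).card ≤ F X) :
    ∃ X₀ : ℕ, ∀ X : ℕ, X₀ ≤ X → (1055 / 10000 : ℝ) * X ≤ F X := by
  have h1 := TT_tendsto (q := 60) (by norm_num) RA hA
  have h2 := comp_div (TT_tendsto (q := 60) (by norm_num) RB hB) (c := 3) (by norm_num)
  have h3 := comp_div (TT_tendsto (q := 60) (by norm_num) RC hC) (c := 5) (by norm_num)
  have h4 := comp_div (TT_tendsto (q := 60) (by norm_num) RD hD) (c := 15) (by norm_num)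
  have h5 := ((h1.add h2).add h3).add h4
  rw [cA, cB, cC, cD, LL_sixty] at h5
  have hpi : Real.pi < 3.141593 := Real.pi_lt_d6
  have hpi0 : 0 < Real.pi := Real.pi_pos
  have hpi2 : Real.pi ^ 2 < 9.8697 := by nlinarith
  have h6 : (1055 / 10000 : ℝ) < (4 : ℕ) * (75 / (8 * Real.pi ^ 2) / (60 : ℕ)) +
      (4 : ℕ) * (75 / (8 * Real.pi ^ 2) / (60 : ℕ)) / (3 : ℕ) +
      (4 : ℕ) * (75 / (8 * Real.pi ^ 2) / (60 : ℕ)) / (5 : ℕ) +
      (8 : ℕ) * (75 / (8 * Real.pi ^ 2) / (60 : ℕ)) / (15 : ℕ) := by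
    have h7 : (4 : ℕ) * (75 / (8 * Real.pi ^ 2) / (60 : ℕ)) +
      (4 : ℕ) * (75 / (8 * Real.pi ^ 2) / (60 : ℕ)) / (3 : ℕ) +
      (4 : ℕ) * (75 / (8 * Real.pi ^ 2) / (60 : ℕ)) / (5 : ℕ) +
      (8 : ℕ) * (75 / (8 * Real.pi ^ 2) / (60 : ℕ)) / (15 : ℕ) = (25 / 24) / Real.pi ^ 2 := by
      push_cast
      field_simp
      norm_num
    rw [h7, lt_div_iff₀ (by positivity)]
    nlinarith
  have h7 := h5.eventually (lt_mem_nhds h6)
  obtain ⟨X₀, hX₀⟩ := eventually_atTop.1 (h7.and (eventually_gt_atTop 0))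
  refine ⟨X₀, fun X hX => ?_⟩
  obtain ⟨h8, h9⟩ := hX₀ X hX
  have hX' : (0 : ℝ) < X := by exact_mod_cast h9
  have h11 : ((TT 60 RA X).card : ℝ) + (TT 60 RB (X / 3)).card +
      (TT 60 RC (X / 5)).card + (TT 60 RD (X / 15)).card ≤ (F X : ℝ) := by
    exact_mod_cast hF X
  refine le_trans ?_ h11
  rw [← add_div, ← add_div, ← add_div, lt_div_iff₀ hX'] at h8
  exact h8.le

open Classical in
/-- (M3) -/
theorem stmtNum7 : StmtNum7 := by
  refine final_gen4 {17, 53, 1, 49} {11, 19, 31, 59} {1, 13, 37, 49} {7, 11, 19, 23, 31, 43, 47, 59}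
    (by decide) (by decide) (by decide) (by decide) (by decide) (by decide) (by decide)
    (by decide) _ (fun X => (count_gen (fun d => d % 4 = 1 ∧ (OKc d ∨ OK2 d)) _ _ _ _ ?_ ?_ ?_ ?_
      X).trans (Finset.card_le_card fun d hd => by simp only [mem_filter] at hd ⊢; exact hd))
  · intro n hn
    simp only [mem_insert, mem_singleton] at hn
    unfold OKc OK2
    omega
  · intro n hn
    simp only [mem_insert, mem_singleton] at hn
    unfold OKc OK2
    omega
  · intro n hn
    simp only [mem_insert, mem_singleton] at hn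
    unfold OKc OK2
    omega
  · intro n hn
    simp only [mem_insert, mem_singleton] at hn
    unfold OKc OK2
    omega

open Classical in
/-- (M4) -/
theorem stmtNum8 : StmtNum8 := by
  rintro r (rfl | rfl)
  · refine final_gen4 {1, 49, 17, 53} {7, 23, 43, 47} {17, 29, 41, 53} {7, 11, 19, 23, 31, 43, 47, 59}
      (by decide) (by decide) (by decide) (by decide) (by decide) (by decide) (by decide)
      (by decide) _ (fun X => (count_gen (fun d => d % 4 = 1 ∧ (OKc (2 * d) ∨ OK2 (2 * d))) _ _ _ _ ?_ ?_ ?_ ?_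
        X).trans (Finset.card_le_card fun d hd => by simp only [mem_filter] at hd ⊢; exact hd))
    · intro n hn
      simp only [mem_insert, mem_singleton] at hn
      unfold OKc OK2
      omega
    · intro n hn
      simp only [mem_insert, mem_singleton] at hn
      unfold OKc OK2
      omega
    · intro n hn
      simp only [mem_insert, mem_singleton] at hn
      unfold OKc OK2
      omega
    · intro n hn
      simp only [mem_insert, mem_singleton] at hn
      unfold OKc OK2
      omega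
  · refine final_gen4 {19, 31, 23, 47} {13, 17, 37, 53} {11, 23, 47, 59} {1, 13, 17, 29, 37, 41, 49, 53}
      (by decide) (by decide) (by decide) (by decide) (by decide) (by decide) (by decide)
      (by decide) _ (fun X => (count_gen (fun d => d % 4 = 3 ∧ (OKc (2 * d) ∨ OK2 (2 * d))) _ _ _ _ ?_ ?_ ?_ ?_
        X).trans (Finset.card_le_card fun d hd => by simp only [mem_filter] at hd ⊢; exact hd))
    · intro n hn
      simp only [mem_insert, mem_singleton] at hn
      unfold OKc OK2
      omega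
    · intro n hn
      simp only [mem_insert, mem_singleton] at hn
      unfold OKc OK2
      omega
    · intro n hn
      simp only [mem_insert, mem_singleton] at hn
      unfold OKc OK2
      omega
    · intro n hn
      simp only [mem_insert, mem_singleton] at hn
      unfold OKc OK2
      omega

end Vale.Agent.P017.R4.H524
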